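import Mathlib
import Vale.Agent.P076.WeightedSq

/-! Weighted square integrability of a series of nonnegative functions (any dimension). -/

namespace Vale.Agent.P076N

open MeasureTheory Vale.Agent.P076

theorem integrable_weight_sq_tsum {n : ℕ} (G : ℕ → (Fin n → ℝ) → ℝ) (hG0 : ∀ k ξ, 0 ≤ G k ξ)
    (hGm : ∀ k, AEStronglyMeasurable (G k) volume)
    (w : (Fin n → ℝ) → ℝ) (hw0 : ∀ ξ, 0 ≤ w ξ) (hwm : AEStronglyMeasurable w volume)
    (hint : ∀ k, Integrable (fun ξ => w ξ * G k ξ ^ 2))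
    (hsum : Summable (fun k => (2 : ℝ) ^ (k + 1) * ∫ ξ, w ξ * G k ξ ^ 2)) :
    Integrable (fun ξ => w ξ * ‖((∑' k, G k ξ : ℝ) : ℂ)‖ ^ 2) := by
  have hfun : (fun ξ => w ξ * ‖((∑' k, G k ξ : ℝ) : ℂ)‖ ^ 2) =
      fun ξ => w ξ * (∑' k, G k ξ) ^ 2 := by
    ext ξ
    rw [Complex.norm_real, Real.norm_eq_abs, sq_abs]
  rw [hfun]
  set f : ℕ → (Fin n → ℝ) → ℝ := fun k ξ => (2 : ℝ) ^ (k + 1) * (w ξ * G k ξ ^ 2) with hf
  have hfint : ∀ k, Integrable (f k) := fun k => (hint k).const_mul _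
  have hfnn : ∀ k ξ, 0 ≤ f k ξ := fun k ξ =>
    mul_nonneg (by positivity) (mul_nonneg (hw0 ξ) (sq_nonneg _))
  have hfsum : Summable (fun k => ∫ ξ, f k ξ) := by
    refine hsum.congr fun k => ?_
    rw [hf]
    simp only
    rw [integral_const_mul]
  have hH := (integrable_tsum_of_nonneg f hfint hfnn hfsum).1
  have hae := ae_summable_of_nonneg f hfint hfnn hfsum
  have hmeasG : AEStronglyMeasurable (fun ξ => ∑' k, G k ξ) volume := by
    have h1 : (fun ξ => ∑' k, G k ξ) = fun ξ => (∑' k, ENNReal.ofReal (G k ξ)).toReal := by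
      ext ξ; exact tsum_eq_toReal_tsum_ofReal _ (fun k => hG0 k ξ)
    rw [h1]
    exact (AEMeasurable.tsum
      (fun k => (hGm k).aemeasurable.ennreal_ofReal)).ennreal_toReal.aestronglyMeasurable
  refine hH.mono' (hwm.mul (hmeasG.pow 2)) ?_
  filter_upwards [hae] with ξ hξ
  rw [Real.norm_of_nonneg (mul_nonneg (hw0 ξ) (sq_nonneg _))]
  rcases (hw0 ξ).eq_or_lt with hw | hw
  · rw [← hw, zero_mul]
    exact tsum_nonneg (fun k => hfnn k ξ)
  · have hs : Summable (fun k => (2 : ℝ) ^ (k + 1) * G k ξ ^ 2) := by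
      have := hξ.mul_left (w ξ)⁻¹
      refine this.congr fun k => ?_
      simp only [hf]
      field_simp
    have h1 := sq_tsum_le (fun k => G k ξ) (fun k => hG0 k ξ) hs
    calc w ξ * (∑' k, G k ξ) ^ 2 ≤ w ξ * ∑' k, (2 : ℝ) ^ (k + 1) * G k ξ ^ 2 :=
          mul_le_mul_of_nonneg_left h1 hw.le
      _ = ∑' k, f k ξ := by
          rw [← tsum_mul_left]
          apply tsum_congr
          intro k
          simp only [hf]
          ring

theorem aestronglyMeasurable_tsum {n : ℕ} (G : ℕ → (Fin n → ℝ) → ℝ) (hG0 : ∀ k ξ, 0 ≤ G k ξ)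
    (hGm : ∀ k, AEStronglyMeasurable (G k) volume) :
    AEStronglyMeasurable (fun ξ => ((∑' k, G k ξ : ℝ) : ℂ)) volume := by
  have h1 : (fun ξ => ∑' k, G k ξ) = fun ξ => (∑' k, ENNReal.ofReal (G k ξ)).toReal := by
    ext ξ; exact tsum_eq_toReal_tsum_ofReal _ (fun k => hG0 k ξ)
  have h2 : AEMeasurable (fun ξ => ∑' k, G k ξ) volume := by
    rw [h1]
    exact (AEMeasurable.tsum fun k => (hGm k).aemeasurable.ennreal_ofReal).ennreal_toReal
  exact (Complex.measurable_ofReal.comp_aemeasurable h2).aestronglyMeasurable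

end Vale.Agent.P076N
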